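import Vale.Agent.P157.Parisi.ModA.Slope
import Vale.Agent.P157.Parisi.Site.Levels

/-!
One step of the recursion from a Lipschitz terminal function: tilts, their derivatives, and the
bound on the curvature that all levels inherit.
-/

noncomputable section

open MeasureTheory ProbabilityTheory Filter Topology
open Vale.Agent.P157.Parisi

namespace Vale.Agent.P157.Parisi.Full.Lip

/-- Measurable and bounded. -/
structure Bm (K : ℝ) (h : ℝ → ℝ) : Prop where
  meas : Measurable h
  bound : ∀ y, |h y| ≤ K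

/-- Differentiable with a bounded derivative. -/
structure IsLip (D : ℝ) (F : ℝ → ℝ) : Prop where
  hd : Differentiable ℝ F
  bound : ∀ y, |deriv F y| ≤ D

/-- A Lipschitz function whose curvature is controlled. -/
structure Curv (D a b : ℝ) (F : ℝ → ℝ) : Prop extends IsLip D F where
  hd2 : Differentiable ℝ (deriv F)
  lo : ∀ y, -a ≤ deriv (deriv F) y
  hi : ∀ y, deriv (deriv F) y + deriv F y ^ 2 ≤ b

variable {D K m δ : ℝ} {F h : ℝ → ℝ}

lemma Bm.nonneg (hh : Bm K h) : 0 ≤ K := (abs_nonneg _).trans (hh.bound 0)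

lemma bm_const (c : ℝ) : Bm |c| fun _ => c := ⟨measurable_const, fun _ => le_rfl⟩

lemma Bm.mul {K' : ℝ} {h' : ℝ → ℝ} (hh : Bm K h) (hh' : Bm K' h') :
    Bm (K * K') fun y => h y * h' y :=
  ⟨hh.meas.mul hh'.meas, fun y => by
    rw [abs_mul]; exact mul_le_mul (hh.bound y) (hh'.bound y) (abs_nonneg _) hh.nonneg⟩

lemma Bm.add {K' : ℝ} {h' : ℝ → ℝ} (hh : Bm K h) (hh' : Bm K' h') :
    Bm (K + K') fun y => h y + h' y :=
  ⟨hh.meas.add hh'.meas, fun y => (abs_add_le _ _).trans (add_le_add (hh.bound y) (hh'.bound y))⟩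

lemma Bm.sq (hh : Bm K h) : Bm (K ^ 2) fun y => h y ^ 2 :=
  ⟨hh.meas.pow_const 2, fun y => by
    rw [abs_pow]; exact pow_le_pow_left₀ (abs_nonneg _) (hh.bound y) 2⟩

lemma IsLip.nonneg (hF : IsLip D F) : 0 ≤ D := (abs_nonneg _).trans (hF.bound 0)

lemma IsLip.bm (hF : IsLip D F) : Bm D (deriv F) := ⟨measurable_deriv F, hF.bound⟩

lemma IsLip.dist_le (hF : IsLip D F) (x y : ℝ) : |F y - F x| ≤ D * |y - x| :=
  Convex.norm_image_sub_le_of_norm_deriv_le (s := Set.univ) (fun z _ => hF.hd z)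
    (fun z _ => hF.bound z) convex_univ (Set.mem_univ x) (Set.mem_univ y)

lemma IsLip.exp_le (hF : IsLip D F) (hm : 0 ≤ m) (hm1 : m ≤ 1) (x t : ℝ) :
    Real.exp (m * F x) * Real.exp (-(D * |t|)) ≤ Real.exp (m * F (x + t)) ∧
      Real.exp (m * F (x + t)) ≤ Real.exp (m * F x) * Real.exp (D * |t|) := by
  have h1 := hF.dist_le x (x + t)
  rw [add_sub_cancel_left] at h1
  obtain ⟨h2, h3⟩ := abs_le.1 h1
  have h4 := mul_le_mul_of_nonneg_left h2 hm
  have h5 := mul_le_mul_of_nonneg_left h3 hm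
  have h6 := mul_le_of_le_one_left (mul_nonneg hF.nonneg (abs_nonneg t)) hm1
  rw [← Real.exp_add, ← Real.exp_add, Real.exp_le_exp, Real.exp_le_exp]
  constructor <;> linarith

lemma wgt_mem (hF : IsLip D F) (hm : 0 ≤ m) (hm1 : m ≤ 1) (x g : ℝ) :
    Real.exp (m * F x) * Real.exp (-(D * Real.sqrt δ) * |g|) ≤ wgt m δ F x g ∧
      wgt m δ F x g ≤ Real.exp (m * F x) * Real.exp (D * Real.sqrt δ * |g|) := by
  have h := hF.exp_le hm hm1 x (Real.sqrt δ * g)
  rw [abs_mul, abs_of_nonneg (Real.sqrt_nonneg δ), ← mul_assoc, ← neg_mul] at h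
  exact h

lemma measurable_shift (hh : Measurable h) (x : ℝ) :
    Measurable fun g => h (x + Real.sqrt δ * g) :=
  hh.comp (by fun_prop)

lemma measurable_wgt (hF : IsLip D F) (x : ℝ) : Measurable (wgt m δ F x) :=
  (((measurable_shift hF.hd.continuous.measurable x)).const_mul m).exp

lemma integrable_wgt (hF : IsLip D F) (hm : 0 ≤ m) (hm1 : m ≤ 1) (x : ℝ) :
    Integrable (wgt m δ F x) (gaussianReal 0 1) :=
  ((Site.integrable_exp_abs (D * Real.sqrt δ)).const_mul (Real.exp (m * F x))).mono'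
    (measurable_wgt hF x).aestronglyMeasurable
    (Eventually.of_forall fun g => by
      rw [Real.norm_eq_abs, wgt, abs_of_pos (Real.exp_pos _)]; exact (wgt_mem hF hm hm1 x g).2)

lemma abs_mul_le (hh : Bm K h) (x g : ℝ) :
    |wgt m δ F x g * h (x + Real.sqrt δ * g)| ≤ K * wgt m δ F x g := by
  rw [abs_mul, wgt, abs_of_pos (Real.exp_pos _), mul_comm K]
  exact mul_le_mul_of_nonneg_left (hh.bound _) (Real.exp_pos _).le

lemma integrable_mul (hF : IsLip D F) (hm : 0 ≤ m) (hm1 : m ≤ 1) (hh : Bm K h) (x : ℝ) :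
    Integrable (fun g => wgt m δ F x g * h (x + Real.sqrt δ * g)) (gaussianReal 0 1) :=
  ((integrable_wgt hF hm hm1 x).const_mul K).mono'
    ((measurable_wgt hF x).mul (measurable_shift hh.meas x)).aestronglyMeasurable
    (Eventually.of_forall fun g => by rw [Real.norm_eq_abs]; exact abs_mul_le hh x g)

lemma wgt_pos (hF : IsLip D F) (hm : 0 ≤ m) (hm1 : m ≤ 1) (x : ℝ) :
    0 < ∫ g, wgt m δ F x g ∂gaussianReal 0 1 :=
  integral_exp_pos (integrable_wgt hF hm hm1 x)

lemma bm_tilt (hF : IsLip D F) (hm : 0 ≤ m) (hm1 : m ≤ 1) (hh : Bm K h) :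
    Bm K (tilt m δ F h) := by
  constructor
  · have hw : Measurable fun p : ℝ × ℝ => Real.exp (m * F (p.1 + Real.sqrt δ * p.2)) :=
      ((hF.hd.continuous.measurable.comp (by fun_prop)).const_mul m).exp
    exact ((hw.mul (hh.meas.comp (by fun_prop : Measurable fun p : ℝ × ℝ =>
      p.1 + Real.sqrt δ * p.2))).stronglyMeasurable.integral_prod_right'
        (ν := gaussianReal 0 1)).measurable.div
      (hw.stronglyMeasurable.integral_prod_right' (ν := gaussianReal 0 1)).measurable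
  · intro x
    rw [tilt_eq, abs_div, abs_of_pos (wgt_pos hF hm hm1 x), div_le_iff₀ (wgt_pos hF hm hm1 x),
      ← integral_const_mul]
    exact abs_integral_le_integral_abs.trans (integral_mono (integrable_mul hF hm hm1 hh x).abs
      ((integrable_wgt hF hm hm1 x).const_mul K) fun g => abs_mul_le hh x g)

lemma tilt_add {K' : ℝ} {h' : ℝ → ℝ} (hF : IsLip D F) (hm : 0 ≤ m) (hm1 : m ≤ 1) (hh : Bm K h)
    (hh' : Bm K' h') (x : ℝ) :
    tilt m δ F (fun y => h y + h' y) x = tilt m δ F h x + tilt m δ F h' x := by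
  simp only [tilt_eq, mul_add]
  rw [integral_add (integrable_mul hF hm hm1 hh x) (integrable_mul hF hm hm1 hh' x), add_div]

lemma tilt_const (hF : IsLip D F) (hm : 0 ≤ m) (hm1 : m ≤ 1) (c x : ℝ) :
    tilt m δ F (fun _ => c) x = c := by
  simp only [tilt_eq]
  rw [integral_mul_const, mul_div_cancel_left₀ _ (wgt_pos hF hm hm1 x).ne']

lemma tilt_le {K' : ℝ} {h' : ℝ → ℝ} (hF : IsLip D F) (hm : 0 ≤ m) (hm1 : m ≤ 1) (hh : Bm K h)
    (hh' : Bm K' h') (hle : ∀ y, h y ≤ h' y) (x : ℝ) : tilt m δ F h x ≤ tilt m δ F h' x :=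
  div_le_div_of_nonneg_right (integral_mono (integrable_mul hF hm hm1 hh x)
    (integrable_mul hF hm hm1 hh' x) fun _ =>
      mul_le_mul_of_nonneg_left (hle _) (Real.exp_pos _).le) (wgt_pos hF hm hm1 x).le

/-- The variance of a tilt is at most the second moment about any point. -/
lemma tilt_var_le (hF : IsLip D F) (hm : 0 ≤ m) (hm1 : m ≤ 1) (hh : Bm K h) (k x : ℝ) :
    0 ≤ tilt m δ F (fun y => (h y - k) ^ 2) x ∧
      tilt m δ F (fun y => h y ^ 2) x - tilt m δ F h x ^ 2 ≤
        tilt m δ F (fun y => (h y - k) ^ 2) x ∧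
      tilt m δ F h x ^ 2 ≤ tilt m δ F (fun y => h y ^ 2) x := by
  have key : ∀ k, tilt m δ F (fun y => (h y - k) ^ 2) x =
      tilt m δ F (fun y => h y ^ 2) x + -(2 * k) * tilt m δ F h x + k ^ 2 := by
    intro k
    have e : (fun y => (h y - k) ^ 2) = fun y => (h y ^ 2 + -(2 * k) * h y) + k ^ 2 :=
      funext fun y => by ring
    rw [e, tilt_add hF hm hm1 (hh.sq.add ((bm_const _).mul hh)) (bm_const _),
      tilt_add hF hm hm1 hh.sq ((bm_const _).mul hh), tilt_const hF hm hm1]
    congr 2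
    simp only [tilt_eq]
    rw [show (fun g => wgt m δ F x g * (-(2 * k) * h (x + Real.sqrt δ * g))) =
      fun g => -(2 * k) * (wgt m δ F x g * h (x + Real.sqrt δ * g)) from funext fun g => by ring,
      integral_const_mul, mul_div_assoc]
  have hnn : ∀ k, 0 ≤ tilt m δ F (fun y => (h y - k) ^ 2) x := fun k => by
    rw [tilt_eq]
    exact div_nonneg (integral_nonneg fun g => mul_nonneg (Real.exp_pos _).le (sq_nonneg _))
      (wgt_pos hF hm hm1 x).le
  refine ⟨hnn k, ?_, ?_⟩
  · rw [key]; linarith [sq_nonneg (k - tilt m δ F h x)]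
  · have := hnn (tilt m δ F h x)
    rw [key] at this
    linarith

/-- Differentiation of a tilted integral. -/
lemma hasDerivAt_num {K' : ℝ} (hF : IsLip D F) (hm : 0 ≤ m) (hm1 : m ≤ 1) (hh : Bm K h)
    (hd : Differentiable ℝ h) (hh' : Bm K' (deriv h)) (x : ℝ) :
    HasDerivAt (fun y => ∫ g, wgt m δ F y g * h (y + Real.sqrt δ * g) ∂gaussianReal 0 1)
      (∫ g, wgt m δ F x g * (m * (deriv F (x + Real.sqrt δ * g) * h (x + Real.sqrt δ * g)) +
        deriv h (x + Real.sqrt δ * g)) ∂gaussianReal 0 1) x := by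
  refine (hasDerivAt_integral_of_dominated_loc_of_deriv_le (μ := gaussianReal 0 1) (x₀ := x)
    (F := fun y g => wgt m δ F y g * h (y + Real.sqrt δ * g))
    (F' := fun y g => wgt m δ F y g * (m * (deriv F (y + Real.sqrt δ * g) *
      h (y + Real.sqrt δ * g)) + deriv h (y + Real.sqrt δ * g)))
    (bound := fun g => Real.exp (m * F x) * Real.exp D * (D * K + K') *
      Real.exp (D * Real.sqrt δ * |g|)) (Metric.ball_mem_nhds x one_pos)
    (Eventually.of_forall fun y =>
      ((measurable_wgt hF y).mul (measurable_shift hh.meas y)).aestronglyMeasurable)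
    (integrable_mul hF hm hm1 hh x)
    ((measurable_wgt hF x).mul ((((measurable_shift hF.bm.meas x).mul
      (measurable_shift hh.meas x)).const_mul m).add
        (measurable_shift hh'.meas x))).aestronglyMeasurable
    (Eventually.of_forall fun g y hy => ?_)
    ((Site.integrable_exp_abs _).const_mul _)
    (Eventually.of_forall fun g y _ => ?_)).2
  · rw [Real.norm_eq_abs, abs_mul, wgt, abs_of_pos (Real.exp_pos _)]
    have h1 := (wgt_mem (δ := δ) hF hm hm1 y g).2
    have hy' : |y - x| ≤ 1 := by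
      rw [Metric.mem_ball, Real.dist_eq] at hy; exact hy.le
    have h2 : Real.exp (m * F y) ≤ Real.exp (m * F x) * Real.exp D := by
      have := (hF.exp_le hm hm1 x (y - x)).2
      rw [add_sub_cancel] at this
      exact this.trans (mul_le_mul_of_nonneg_left
        (Real.exp_le_exp.2 (mul_le_of_le_one_right hF.nonneg hy')) (Real.exp_pos _).le)
    have h3 : |m * (deriv F (y + Real.sqrt δ * g) * h (y + Real.sqrt δ * g)) +
        deriv h (y + Real.sqrt δ * g)| ≤ D * K + K' := by
      refine (abs_add_le _ _).trans (add_le_add ?_ (hh'.bound _))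
      rw [abs_mul, abs_of_nonneg hm]
      exact (mul_le_of_le_one_left (abs_nonneg _) hm1).trans ((hF.bm.mul hh).bound _)
    have hDK : 0 ≤ D * K + K' := (abs_nonneg _).trans h3
    calc Real.exp (m * F (y + Real.sqrt δ * g)) * _
        ≤ Real.exp (m * F x) * Real.exp D * Real.exp (D * Real.sqrt δ * |g|) * (D * K + K') :=
          mul_le_mul (h1.trans (mul_le_mul_of_nonneg_right h2 (Real.exp_pos _).le)) h3
            (abs_nonneg _) (by positivity)
      _ = _ := by ring
  · refine ((((hF.hd _).hasDerivAt.comp_add_const y (Real.sqrt δ * g)).const_mul m).exp.mul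
      ((hd _).hasDerivAt.comp_add_const y (Real.sqrt δ * g))).congr_deriv ?_
    simp only [wgt]
    ring

lemma hasDerivAt_Z (hF : IsLip D F) (hm : 0 ≤ m) (hm1 : m ≤ 1) (x : ℝ) :
    HasDerivAt (fun y => ∫ g, wgt m δ F y g ∂gaussianReal 0 1)
      (m * ∫ g, wgt m δ F x g * deriv F (x + Real.sqrt δ * g) ∂gaussianReal 0 1) x := by
  have h := hasDerivAt_num (δ := δ) (h := fun _ => (1 : ℝ)) (K' := 0) hF hm hm1 (bm_const 1)
    (differentiable_const 1) ⟨measurable_deriv _, fun y => by simp⟩ x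
  simp only [mul_one, deriv_const', add_zero] at h
  refine h.congr_deriv ?_
  rw [← integral_const_mul]
  exact integral_congr_ae (Eventually.of_forall fun g => by ring)

lemma hasDerivAt_layer (hF : IsLip D F) (hm : 0 < m) (hm1 : m ≤ 1) (x : ℝ) :
    HasDerivAt (layer m δ F) (tilt m δ F (deriv F) x) x := by
  have hz := (wgt_pos (δ := δ) hF hm.le hm1 x).ne'
  refine (((hasDerivAt_Z (δ := δ) hF hm.le hm1 x).log hz).const_mul (1 / m)).congr_deriv ?_
  rw [tilt_eq]
  field_simp

lemma deriv_layer (hF : IsLip D F) (hm : 0 < m) (hm1 : m ≤ 1) :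
    deriv (layer m δ F) = tilt m δ F (deriv F) :=
  funext fun x => (hasDerivAt_layer hF hm hm1 x).deriv

lemma Curv.bm2 {a b : ℝ} (hF : Curv D a b F) : Bm (|a| + |b|) (deriv (deriv F)) :=
  ⟨measurable_deriv _, fun y => abs_le.2 ⟨by linarith [hF.lo y, le_abs_self a, abs_nonneg b],
    by linarith [hF.hi y, sq_nonneg (deriv F y), le_abs_self b, abs_nonneg a]⟩⟩

/-- A step keeps the bound on the derivative and on the curvature. -/
theorem Curv.layer {a b : ℝ} (hF : Curv D a b F) (hm : 0 < m) (hm1 : m ≤ 1) :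
    Curv D a b (layer m δ F) := by
  have hu := hF.toIsLip.bm
  have hu' := hF.bm2
  have hd1 := deriv_layer (δ := δ) hF.toIsLip hm hm1
  have key : ∀ x, HasDerivAt (tilt m δ F (deriv F))
      (tilt m δ F (deriv (deriv F)) x + m * (tilt m δ F (fun y => deriv F y ^ 2) x -
        tilt m δ F (deriv F) x ^ 2)) x := by
    intro x
    have hz := (wgt_pos (δ := δ) hF.toIsLip hm.le hm1 x).ne'
    have hN := hasDerivAt_num (δ := δ) hF.toIsLip hm.le hm1 hu hF.hd2 hu' x
    refine (hN.div (hasDerivAt_Z hF.toIsLip hm.le hm1 x) hz).congr_deriv ?_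
    have e : ∫ g, wgt m δ F x g * (m * (deriv F (x + Real.sqrt δ * g) *
          deriv F (x + Real.sqrt δ * g)) + deriv (deriv F) (x + Real.sqrt δ * g))
            ∂gaussianReal 0 1 =
        m * (∫ g, wgt m δ F x g * deriv F (x + Real.sqrt δ * g) ^ 2 ∂gaussianReal 0 1) +
          ∫ g, wgt m δ F x g * deriv (deriv F) (x + Real.sqrt δ * g) ∂gaussianReal 0 1 := by
      rw [← integral_const_mul, ← integral_add
        ((integrable_mul hF.toIsLip hm.le hm1 hu.sq x).const_mul m)
        (integrable_mul hF.toIsLip hm.le hm1 hu' x)]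
      exact integral_congr_ae (Eventually.of_forall fun g => by ring)
    rw [e]
    simp only [tilt_eq]
    field_simp
    ring
  have hl : IsLip D (Parisi.layer m δ F) :=
    ⟨fun x => (hasDerivAt_layer hF.toIsLip hm hm1 x).differentiableAt, fun x => by
      rw [hd1]; exact (bm_tilt hF.toIsLip hm.le hm1 hu).bound x⟩
  refine ⟨hl, by rw [hd1]; exact fun x => (key x).differentiableAt, fun x => ?_, fun x => ?_⟩
  · rw [hd1, (key x).deriv]
    have h1 := tilt_le (δ := δ) hF.toIsLip hm.le hm1 (bm_const (-a)) hu' hF.lo x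
    rw [tilt_const hF.toIsLip hm.le hm1] at h1
    linarith [mul_nonneg hm.le (sub_nonneg.2
      (tilt_var_le (δ := δ) hF.toIsLip hm.le hm1 hu 0 x).2.2)]
  · rw [hd1, (key x).deriv]
    have h1 := tilt_le (δ := δ) hF.toIsLip hm.le hm1 (hu'.add hu.sq) (bm_const b) hF.hi x
    rw [tilt_add hF.toIsLip hm.le hm1 hu' hu.sq, tilt_const hF.toIsLip hm.le hm1] at h1
    linarith [mul_nonneg (sub_nonneg.2 hm1) (sub_nonneg.2
      (tilt_var_le (δ := δ) hF.toIsLip hm.le hm1 hu 0 x).2.2)]

end Vale.Agent.P157.Parisi.Full.Lip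

end
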